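import Crest.Agent.N250.Fm.Act
import Crest.Agent.N250.Act.Inst
import Crest.Agent.N250.B1.Reg
import Crest.Agent.N250.HJ.Main

/-!
# Row 250 (helper26): the size of the action of an end and of the boundary action
-/

set_option autoImplicit false
open MeasureTheory Set Filter Topology

noncomputable section

namespace Crest.Agent.N250.Av

open B1

variable {ℓ : Ell}

/-- the standing hypotheses on a member of the family of ends -/
structure Mem (R K g g' : ℝ) (X a : ℂ) (J : Jt ℓ) : Prop where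
  ex : Ex g g'
  hR : 2 ≤ R
  hK : 32 ≤ K
  dom : ∃ (D : Dat ℓ) (ε : ℝ), ((X, a, D) : Par ℓ) ∈ Dom R K g g' ε
  co3 : Wi.co (J 3) 0 = 0
  inB : ∃ e, e ≤ 1 / 36 ∧ InB R K g g' X.re a e J

theorem Mem.of {R K g g' ε e : ℝ} {z : Par ℓ} {J : Jt ℓ} {c : CI} (hg : Ex g g') (hR : 2 ≤ R)
    (hK : 32 ≤ K) (hz : z ∈ Dom R K g g' ε) (hj : IsJet c J) (he : e ≤ 1 / 36)
    (hJ : InB R K g g' z.1.re z.2.1 e J) : Mem R K g g' z.1 z.2.1 J :=
  ⟨hg, hR, hK, ⟨z.2.2, ε, hz⟩, Rg.IsJet.co3 hj, e, he, hJ⟩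

theorem norm_sqrt_le {z : ℂ} {r : ℝ} (hr : 0 ≤ r) (h : ‖z‖ ≤ r ^ 2) : ‖Complex.sqrt z‖ ≤ r := by
  refine (pow_le_pow_iff_left₀ (norm_nonneg _) hr two_ne_zero).1 ?_
  rwa [← norm_pow, Act.sqrt_sq']

theorem exp_add_le (t : ℝ) : Real.exp (t + 1) ≤ 3 * Real.exp t := by
  rw [Real.exp_add, mul_comm]
  exact mul_le_mul_of_nonneg_right (Real.exp_one_lt_d9.le.trans (by norm_num)) (Real.exp_pos _).le

namespace Mem

variable {R K g g' : ℝ} {X a : ℂ} {J : Jt ℓ} (h : Mem R K g g' X a J)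
include h

theorem X_ge : 2 * R + 4 < X.re := let ⟨_, _, hz⟩ := h.dom; hz.1

theorem RX : R + 2 ≤ X.re := by linarith [h.X_ge, h.hR]

theorem im_le : |X.im| ≤ 1 / 8 := by
  obtain ⟨_, _, hz⟩ := h.dom
  refine hz.2.2.1.le.trans ?_
  rw [one_div]
  exact inv_anti₀ (by norm_num) (by linarith [h.X_ge, h.hR])

theorem regJ : RegJ R X a J := by
  obtain ⟨D, ε, hz⟩ := h.dom
  obtain ⟨e, he, hJ⟩ := h.inB
  exact Rg.regJ (z := (X, a, D)) h.ex h.hR h.hK he hz h.co3 hJ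

theorem re_pos (s : II) (θ : ℝ) : 0 < (vj R X a J s θ 0).re := by
  obtain ⟨_, _, hz⟩ := h.dom
  obtain ⟨_, he, hJ⟩ := h.inB
  have h1 := (Rg.reg_q h.ex h.hR h.hK he hz h.co3 hJ s θ).1
  have h2 := (Rg.pt_of_dom h.hR (by linarith [h.hK]) hz s).re_pos
  exact lt_of_lt_of_le (by linarith) h1

/-- the Lagrangian is Gaussian -/
theorem lag_le (s : II) (θ : ℝ) :
    ‖Act.Lag (gam R X s) (vj R X a J s θ 0) (vj R X a J s θ 1) (vj R X a J s θ 3)‖ ≤
      9 * Real.exp (-xr R X.re s ^ 2 / 4) := by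
  have h0 := h.re_pos s θ
  have hi := h.im_le
  obtain ⟨_, _, hz⟩ := h.dom
  obtain ⟨_, he, hJ⟩ := h.inB
  have h1 := (Rg.reg_q h.ex h.hR h.hK he hz h.co3 hJ s θ).2
  have P := Rg.pt_of_dom h.hR (by linarith [h.hK]) hz s
  have h2 := P.norm_le
  have h3 := Complex.re_le_norm (et a (xr R X.re s))
  simp only at h1 h2 h3
  have hW : ‖Act.Wf (vj R X a J s θ 0) (vj R X a J s θ 1) (vj R X a J s θ 3)‖ ≤ 3 := by
    refine norm_sqrt_le (by norm_num) ?_
    have := norm_add_le (Po.QQ (vj R X a J s θ 0) (vj R X a J s θ 1) (vj R X a J s θ 3) -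
      2 * et a (xr R X.re s)) (2 * et a (xr R X.re s))
    rw [sub_add_cancel, norm_mul, Complex.norm_two] at this
    change ‖Po.QQ _ _ _‖ ≤ _
    linarith
  have hE : ‖Act.Ef (gam R X s) (vj R X a J s θ 0)‖ ≤ 3 * Real.exp (-xr R X.re s ^ 2 / 4) := by
    rw [Act.Ef, Complex.norm_exp]
    refine (Real.exp_le_exp.2 ?_).trans (exp_add_le _)
    have e : (-gam R X s ^ 2 / 4 - vj R X a J s θ 0 / 2).re =
        -((gam R X s).re ^ 2 - (gam R X s).im ^ 2) / 4 - (vj R X a J s θ 0).re / 2 := by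
      simp [sq]
    have h4 : |(gam R X s).im| ≤ 1 := by
      rw [gam_im, abs_mul, abs_of_nonneg (pow_nonneg (cub_nonneg _) 3)]
      exact mul_le_one₀ (by linarith) (pow_nonneg (cub_nonneg _) 3) (cub_pow_le_one s 3)
    rw [e, gam_re]
    nlinarith [(sq_le_one_iff_abs_le_one _).2 h4]
  rw [Act.Lag, norm_mul]
  nlinarith [mul_le_mul hW hE (norm_nonneg _) (by norm_num)]

theorem dgam_le (s : II) : ‖dgam R X s‖ ≤ 2 * dxr R X.re s := by
  have h1 := two_le_dxr h.RX s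
  have hi := h.im_le
  rw [dgam_sub_dxr]
  refine (norm_add_le _ _).trans ?_
  rw [norm_mul, Complex.norm_I, mul_one, Complex.norm_real, Complex.norm_real,
    Real.norm_of_nonneg (by linarith), Real.norm_eq_abs, abs_mul, abs_mul,
    abs_of_nonneg (pow_nonneg (cub_nonneg _) 2), abs_of_pos (by norm_num : (0 : ℝ) < 6)]
  nlinarith [cub_pow_le_one s 2, abs_nonneg X.im, pow_nonneg (cub_nonneg s) 2]

/-- **the action of an end is bounded** -/
theorem actC_le {χ : ℝ → ℂ} (hχ : ∀ s ∈ Icc (0 : ℝ) 1, ‖χ s‖ ≤ 1) : ‖Act.actC χ R X a J‖ ≤ 120 := by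
  have hd : ∀ s, HasDerivAt (fun s => -(18 * Real.exp (-xr R X.re s ^ 2 / 4)))
      (18 * (xr R X.re s / 2 * dxr R X.re s * Real.exp (-xr R X.re s ^ 2 / 4))) s := fun s => by
    refine (((((hasDerivAt_xr R X.re s).fun_pow 2).fun_neg.div_const 4).exp.const_mul
      18).fun_neg).congr_deriv ?_
    simp; ring
  have hc : Continuous fun s =>
      18 * (xr R X.re s / 2 * dxr R X.re s * Real.exp (-xr R X.re s ^ 2 / 4)) := by
    have := continuous_xr R X.re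
    have := continuous_dxr R X.re
    fun_prop
  refine (Act.II_le zero_le_one (hc.intervalIntegrable 0 1) fun p hp => ?_).trans ?_
  · have hs : p.1 ∈ Icc (0 : ℝ) 1 := hp.1
    have h1 := h.lag_le ⟨p.1, hs⟩ p.2
    have h2 := h.dgam_le ⟨p.1, hs⟩
    have h3 := (xr_mem h.RX hs).1
    have h4 := two_le_dxr h.RX p.1
    have h5 := h.hR
    have h6 := Real.exp_pos (-xr R X.re p.1 ^ 2 / 4)
    simp only [Act.vf, B1.ex, projIcc_of_mem _ hs, norm_mul] at h1 h2 ⊢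
    refine (mul_le_mul (hχ _ hs) (mul_le_mul h1 h2 (norm_nonneg _) (by positivity))
      (by positivity) zero_le_one).trans ?_
    nlinarith [mul_le_mul_of_nonneg_right (h5.trans h3) (mul_pos h6 (two_pos.trans_le h4)).le]
  · rw [intervalIntegral.integral_eq_sub_of_hasDerivAt (fun s _ => hd s) (hc.intervalIntegrable 0 1)]
    have h1 := Real.exp_pos (-xr R X.re 1 ^ 2 / 4)
    have h2 : Real.exp (-xr R X.re 0 ^ 2 / 4) ≤ 1 :=
      Real.exp_le_one_iff.2 (by nlinarith [sq_nonneg (xr R X.re 0)])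
    nlinarith [Real.pi_lt_d2, Real.pi_pos]

end Mem

/-- **the boundary action is Gaussian** -/
theorem S_le {N : ℕ} {X V : ℂ} (h : HJ.Adm N X V) (hX : 1 ≤ X.re) (hi : |X.im| ≤ 1) :
    ‖HJ.S N X V‖ ≤ 2000 * Real.exp (-X.re ^ 2 / 4) := by
  have hN : (0 : ℝ) ≤ N := Nat.cast_nonneg N
  have hw : ‖HJ.ww X V‖ ≤ 1 / 7 := h.hw.trans (one_div_le_one_div_of_le (by norm_num) (by linarith))
  have h1 := HJ.norm_eN_le h.hw
  have h2 := h.y_le
  have h3 := h.hV'
  have hn : 1 ≤ ‖X‖ := hX.trans (Complex.re_le_norm X)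
  have h4 : ‖1 - HJ.eN N (HJ.ww X V) - V / X ^ 2‖ ≤ 110 := by
    refine (norm_sub_le _ _).trans ((add_le_add_left (norm_sub_le _ _) _).trans ?_)
    rw [div_eq_mul_one_div, norm_mul, norm_one]
    nlinarith [mul_le_mul h3 h2 (norm_nonneg _) (by norm_num)]
  have h5 : ‖HJ.rr V‖ ≤ 3 := by
    have : HJ.rr V = Complex.sqrt (2 * V) := by rw [HJ.rr, Complex.sqrt, one_div]
    rw [this]
    exact norm_sqrt_le (by norm_num) (by rw [norm_mul, Complex.norm_two]; linarith)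
  have h6 : ‖HJ.EE X V‖ ≤ 3 * Real.exp (-X.re ^ 2 / 4) := by
    rw [HJ.EE, Complex.norm_exp]
    refine (Real.exp_le_exp.2 ?_).trans (exp_add_le _)
    have e : (-X ^ 2 / 4 - V / 2).re = -(X.re ^ 2 - X.im ^ 2) / 4 - V.re / 2 := by simp [sq]
    rw [e]
    nlinarith [(sq_le_one_iff_abs_le_one _).2 hi, h.hV]
  have h7 := Real.exp_pos (-X.re ^ 2 / 4)
  rw [HJ.S, norm_mul, norm_div, norm_mul, norm_mul, norm_neg, Complex.norm_two]
  have h8 : 2 * ‖HJ.EE X V‖ * ‖HJ.rr V‖ / ‖X‖ ≤ 2 * (3 * Real.exp (-X.re ^ 2 / 4)) * 3 :=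
    (div_le_self (by positivity) hn).trans (by gcongr)
  nlinarith [mul_le_mul h8 h4 (norm_nonneg _) (by positivity)]

theorem S_le' {N : ℕ} {X V : ℂ} (h : HJ.Adm N X V) (hX : 1 ≤ X.re) (hi : |X.im| ≤ 1) :
    ‖HJ.S N X V‖ ≤ 2000 := by
  have := Real.exp_le_one_iff.2 (show -X.re ^ 2 / 4 ≤ 0 by nlinarith [sq_nonneg X.re])
  linarith [S_le h hX hi]

/-- the boundary action tends to zero -/
theorem S_lim {ι : Type*} {l : Filter ι} {N : ℕ} {X : ι → ℝ} {V : ι → ℂ} (hX : Tendsto X l atTop)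
    (h : ∀ᶠ i in l, HJ.Adm N (X i) (V i)) : Tendsto (fun i => HJ.S N (X i) (V i)) l (𝓝 0) := by
  have h1 : Tendsto (fun i => 2000 * Real.exp (-X i ^ 2 / 4)) l (𝓝 (2000 * 0)) := by
    refine (Real.tendsto_exp_atBot.comp ?_).const_mul _
    exact (tendsto_neg_atTop_atBot.comp ((tendsto_pow_atTop two_ne_zero).comp hX)).atBot_div_const
      (by norm_num)
  rw [mul_zero] at h1
  refine squeeze_zero_norm' ?_ h1
  filter_upwards [h, hX.eventually_ge_atTop 1] with i h1 h2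
  simpa using S_le h1 (by simpa using h2) (by simp)

end Crest.Agent.N250.Av

end
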