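import Crest.Agent.N250.Av.CoreAlg
import Crest.Agent.N250.Gc.Var2
import Crest.Agent.N250.Gc.Gr
import Crest.Agent.N250.Wt.Grn
import Crest.Agent.N250.Sw.Pg

/-!
# Row 250 (helper13): the core integrals `actC g Y` for maps `Y` close to the position vector
-/

set_option autoImplicit false
set_option linter.unusedSectionVars false
open MeasureTheory Set Filter Topology
open scoped ComplexConjugate

noncomputable section

namespace Crest.Agent.N250.WS.Geo

open Crest.Agent.N222 Gc Cj Av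

variable {X : Type} [TopologicalSpace X] [MeasurableSpace X] (G : Geo X)

/-- `√(1 + |x|²)` -/
def rt (p : X) : ℝ := √(1 + G.S.x2.1 p)

theorem rt_sq (p : X) : G.rt p ^ 2 = 1 + G.S.x2.1 p :=
  Real.sq_sqrt (add_nonneg zero_le_one (G.x2_nonneg p))

theorem one_le_rt (p : X) : 1 ≤ G.rt p :=
  Real.one_le_sqrt.2 (le_add_of_nonneg_right (G.x2_nonneg p))

theorem rt_le (p : X) : G.rt p ≤ 1 + G.S.x2.1 p := by
  rw [← G.rt_sq]; nlinarith [G.one_le_rt p]

theorem ρ_le_rt (p : X) : G.ρ.1 p ≤ G.rt p := Real.le_sqrt_of_sq_le (G.ρ_le p)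

theorem x2_eq (p : X) : G.S.x2.1 p = ∑ a, (G.S.x a).1 p * (G.S.x a).1 p := by
  rw [← ev_apply, Mov.x2, map_sum]
  exact Finset.sum_congr rfl fun a _ => map_mul _ _ _

theorem x_le_rt (c : Fin 3) (p : X) : ‖(G.SC.x c).1 p‖ ≤ G.rt p := by
  rw [SC_x, oR_apply, Complex.norm_real, Real.norm_eq_abs]
  refine Real.abs_le_sqrt ?_
  have := Finset.single_le_sum (f := fun a => (G.S.x a).1 p * (G.S.x a).1 p)
    (fun a _ => mul_self_nonneg _) (Finset.mem_univ c)
  rw [x2_eq, pow_two]; linarith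

theorem nC_le (p : X) (c : Fin 3) : ‖Cj.nC G p c‖ ≤ 1 := by
  have e := nn (G := G) p
  have := Finset.single_le_sum (f := fun a => (G.n a).1 p * (G.n a).1 p)
    (fun a _ => mul_self_nonneg _) (Finset.mem_univ c)
  rw [Cj.nC, Complex.norm_real, Real.norm_eq_abs, ← sq_le_one_iff_abs_le_one, pow_two]
  linarith

theorem nC_nC (p : X) : dot (Cj.nC G p) (Cj.nC G p) = 1 := by
  simp only [dot, Cj.nC]; exact_mod_cast nn (G := G) p

theorem Dx_val (p : X) (a c : Fin 3) : (G.SC.D a (G.SC.x c)).1 p = P0 (Cj.nC G p) a c := by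
  have := congrArg (Cj.ev G p) (congrFun (congrFun G.hypC.Jm_x a) c)
  simp only [P0, map_sub, map_mul, apply_ite (Cj.ev G p), map_one, map_zero] at this
  exact this

theorem dot_x (p : X) : (dot G.SC.x G.SC.x).1 p = (G.S.x2.1 p : ℂ) :=
  congrArg (fun f : G.SmC => f.1 p) G.SC_x2

/-- at `p` the map `Y` is `C¹`-close to the position vector -/
structure Cl (Y : Fin 3 → G.SmC) (p : X) : Prop where
  y : ∀ c, ‖(Y c).1 p - (G.SC.x c).1 p‖ ≤ G.rt p / 400
  J : ∀ a c, ‖(G.SC.D a (Y c)).1 p - (G.SC.D a (G.SC.x c)).1 p‖ ≤ 1 / 400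

theorem cl_x (p : X) : G.Cl G.SC.x p :=
  ⟨fun c => by rw [sub_self, norm_zero]; linarith [G.one_le_rt p],
    fun a c => by rw [sub_self, norm_zero]; norm_num⟩

namespace Cl

variable {G} {Y : Fin 3 → G.SmC} {p : X} (h : G.Cl Y p)
include h

theorem J' (a c : Fin 3) : ‖JC Y p a c - P0 (Cj.nC G p) a c‖ ≤ 1 / 400 := G.Dx_val p a c ▸ h.J a c

theorem GX_sub : ‖(G.SC.GX Y).1 p - 1‖ ≤ 1 / 2 := by
  rw [GX_val]; exact G2_sub_le (G.nC_le p) (G.nC_nC p) h.J'

theorem NX_sub (c : Fin 3) : ‖(G.SC.NX Y c).1 p - Cj.nC G p c‖ ≤ 1 / 16 := by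
  rw [NX_val]; exact Nv_sub_le (G.nC_le p) h.J' c

theorem slit : (G.SC.GX Y).1 p ∈ Complex.slitPlane := slit_of h.GX_sub

theorem GX_ge : 1 / 2 ≤ ‖(G.SC.GX Y).1 p‖ := by
  have := norm_sub_norm_le 1 ((G.SC.GX Y).1 p)
  rw [norm_sub_rev, norm_one] at this
  linarith [h.GX_sub]

theorem GX_le : ‖(G.SC.GX Y).1 p‖ ≤ 3 / 2 := by
  have := norm_sub_norm_le ((G.SC.GX Y).1 p) 1
  rw [norm_one] at this
  linarith [h.GX_sub]

theorem sq_le : ‖G.sq Y p‖ ≤ 2 := by
  refine abs_le_of_sq_le_sq' (b := 2) ?_ zero_le_two |>.2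
  rw [← norm_pow, Act.sqrt_sq']; linarith [h.GX_le]

theorem Y_le (c : Fin 3) : ‖(Y c).1 p‖ ≤ 2 * G.rt p := by
  have := norm_sub_norm_le ((Y c).1 p) ((G.SC.x c).1 p)
  linarith [h.y c, G.x_le_rt c p, G.one_le_rt p]

theorem J_le (a c : Fin 3) : ‖(G.SC.D a (Y c)).1 p‖ ≤ 3 := by
  have := norm_sub_norm_le (JC Y p a c) (P0 (Cj.nC G p) a c)
  change ‖JC Y p a c‖ ≤ 3
  linarith [h.J' a c, P0_le (G.nC_le p) a c]

theorem dot_sub : ‖(dot Y Y).1 p - G.S.x2.1 p‖ ≤ (1 + G.S.x2.1 p) / 50 := by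
  rw [← G.dot_x, dot_val, dot_val, ← G.rt_sq]
  exact dot_sub_le (x := val G.SC.x p) (fun c => G.x_le_rt c p) h.y

theorem re_ge : 4 / 5 * G.S.x2.1 p - 1 ≤ ((dot Y Y).1 p).re := by
  have h1 := (abs_le.1 ((Complex.abs_re_le_norm _).trans h.dot_sub)).1
  rw [Complex.sub_re, Complex.ofReal_re] at h1
  linarith [G.x2_nonneg p]

theorem eX_le : ‖G.eX Y p‖ ≤ 3 * Real.exp (-(1 / 5 * G.S.x2.1 p)) := by
  rw [Complex.norm_exp, Complex.div_ofNat_re, Complex.neg_re]
  refine (Real.exp_le_exp.2 (show _ ≤ 1 + -(1 / 5 * G.S.x2.1 p) by linarith [h.re_ge])).trans ?_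
  rw [Real.exp_add]
  exact mul_le_mul_of_nonneg_right (Real.exp_one_lt_three).le (Real.exp_pos _).le

theorem lag_le (g : G.SmC) :
    ‖G.lagC g Y p‖ ≤ ‖g.1 p‖ * (6 * Real.exp (-(1 / 5 * G.S.x2.1 p))) :=
  norm_mul_le_of_le le_rfl ((norm_mul_le_of_le h.eX_le h.sq_le).trans_eq (by ring))

theorem cj : G.Cl (fun c => G.cj (Y c)) p where
  y c := by
    rw [← G.homCj.x, cj_apply, cj_apply, ← map_sub, Complex.norm_conj]; exact h.y c
  J a c := by
    rw [← G.homCj.x, ← cj_D, ← cj_D, cj_apply, cj_apply, ← map_sub, Complex.norm_conj]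
    exact h.J a c

end Cl

/-! ### value at the position vector, conjugation, real data -/

theorem lagC_x (g : G.SmC) (p : X) :
    G.lagC g G.SC.x p = Real.exp (-G.S.x2.1 p / 4) • g.1 p := by
  rw [lagC, G.hypC.GX_x, dot_x, show (1 : G.SmC).1 p = 1 from rfl, Complex.sqrt_one,
    Complex.real_smul]
  push_cast; ring

theorem sqrt_conj {z : ℂ} (h : z ∈ Complex.slitPlane) :
    Complex.sqrt (conj z) = conj (Complex.sqrt z) := by
  rw [Complex.sqrt, Complex.sqrt, Complex.conj_cpow _ _ (Complex.slitPlane_arg_ne_pi h),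
    map_inv₀, map_ofNat]

theorem lagC_cj {g : G.SmC} {Y : Fin 3 → G.SmC} {p : X}
    (h : g.1 p ≠ 0 → (G.SC.GX Y).1 p ∈ Complex.slitPlane) :
    G.lagC (G.cj g) (fun c => G.cj (Y c)) p = conj (G.lagC g Y p) := by
  by_cases h0 : g.1 p = 0
  · simp [lagC, h0]
  rw [lagC, lagC, ← G.homCj.GX, ← map_dot, cj_apply, cj_apply, cj_apply, sqrt_conj (h h0),
    map_mul, map_mul, ← Complex.exp_conj, map_div₀, map_neg, map_ofNat]

theorem actC_cj {g : G.SmC} {Y : Fin 3 → G.SmC}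
    (h : ∀ p, g.1 p ≠ 0 → (G.SC.GX Y).1 p ∈ Complex.slitPlane) :
    G.actC (G.cj g) (fun c => G.cj (Y c)) = conj (G.actC g Y) := by
  rw [actC, actC, ← integral_conj]
  exact integral_congr_ae (.of_forall fun p => G.lagC_cj (h p))

theorem GX_nonneg (Y : Fin 3 → G.R) (p : X) : 0 ≤ (G.S.GX Y).1 p := by
  rw [← ev_apply, Mov.GX, G2, dot, map_sum]
  exact Finset.sum_nonneg fun a _ => by rw [map_mul]; exact mul_self_nonneg _

theorem lagC_oR (g : G.R) (Y : Fin 3 → G.R) (p : X) : G.lagC (G.oR g) (fun c => G.oR (Y c)) p =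
    (g.1 p * (Real.exp (-(dot Y Y).1 p / 4) * √((G.S.GX Y).1 p)) : ℝ) := by
  rw [lagC, ← G.hom.GX, ← map_dot, oR_apply, oR_apply, oR_apply,
    Complex.sqrt_of_nonneg (by exact_mod_cast G.GX_nonneg Y p)]
  simp

theorem actC_oR (g : G.R) (Y : Fin 3 → G.R) : G.actC (G.oR g) (fun c => G.oR (Y c)) =
    (∫ p, g.1 p * (Real.exp (-(dot Y Y).1 p / 4) * √((G.S.GX Y).1 p)) ∂G.M.mu : ℝ) := by
  rw [actC, ← integral_complex_ofReal]
  exact integral_congr_ae (.of_forall fun p => G.lagC_oR g Y p)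

variable [BorelSpace X]

theorem int_ga {F : Type} [NormedAddCommGroup F] [NormedSpace ℝ F] (f : X → F) :
    ∫ p, f p ∂G.ga = ∫ p, Real.exp (-G.S.x2.1 p / 4) • f p ∂G.M.mu := by
  have hc : Continuous fun p => Real.exp (-G.S.x2.1 p / 4) :=
    ((G.contR _).neg.div_const 4).rexp
  rw [ga, integral_withDensity_eq_integral_toReal_smul hc.measurable.ennreal_ofReal
    (.of_forall fun _ => ENNReal.ofReal_lt_top)]
  simp only [ENNReal.toReal_ofReal (Real.exp_pos _).le]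

theorem actC_x (g : G.SmC) : G.actC g G.SC.x = ∫ p, g.1 p ∂G.ga := by
  rw [int_ga, actC]; simp only [lagC_x]

theorem actC_x_ipC (s : G.R) (u : G.SmC) : G.actC (G.oR s * u) G.SC.x = G.ipC s u := G.actC_x _

theorem actC_x_oR (g : G.R) :
    G.actC (G.oR g) G.SC.x = (∫ p, g.1 p * Real.exp (-G.S.x2.1 p / 4) ∂G.M.mu : ℝ) := by
  rw [actC, ← integral_complex_ofReal]
  simp only [lagC_x, oR_apply, Complex.real_smul, Complex.ofReal_mul, mul_comm]

theorem aesm_lagC (g : G.SmC) (Y : Fin 3 → G.SmC) : AEStronglyMeasurable (G.lagC g Y) G.M.mu :=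
  ((G.contC _).measurable.mul ((G.contC (G.eY Y)).measurable.mul
    ((G.contC _).measurable.pow_const _))).aestronglyMeasurable

/-! ### holomorphic families -/

variable {V : Type} [NormedAddCommGroup V] [NormedSpace ℂ V]

/-- a holomorphic family of bounded weights vanishing off `K` and of maps close to `x` on `K` -/
structure CFam (K : Set X) (U : Set V) (C : ℝ) (g : V → G.SmC) (Y : V → Fin 3 → G.SmC) : Prop where
  op : IsOpen U
  off : ∀ z ∈ U, ∀ p, p ∉ K → (g z).1 p = 0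
  bd : ∀ z ∈ U, ∀ p ∈ K, ‖(g z).1 p‖ ≤ C * G.rt p
  cl : ∀ z ∈ U, ∀ p ∈ K, G.Cl (Y z) p
  hg : ∀ p ∈ K, DifferentiableOn ℂ (fun z => (g z).1 p) U
  hY : ∀ p ∈ K, ∀ c, DifferentiableOn ℂ (fun z => (Y z c).1 p) U
  hJ : ∀ p ∈ K, ∀ a c, DifferentiableOn ℂ (fun z => (G.SC.D a (Y z c)).1 p) U

/-- the constant `∫ 6 (1 + |x|²) exp (-|x|² / 5)` -/
def cW : ℝ := ∫ p, G.rt p * (6 * Real.exp (-(1 / 5 * G.S.x2.1 p))) ∂G.M.mu

theorem intg_cW : Integrable (fun p => G.rt p * (6 * Real.exp (-(1 / 5 * G.S.x2.1 p)))) G.M.mu := by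
  refine ((G.intg_exp (δ := 1 / 10) (by norm_num)).const_mul 60).mono' ?_ (.of_forall fun p => ?_)
  · exact ((continuous_const.add (G.contR _)).sqrt.mul (continuous_const.mul
      (continuous_const.mul (G.contR _)).neg.rexp)).aestronglyMeasurable
  · have h0 := G.one_le_rt p
    have h1 := Real.add_one_le_exp (1 / 10 * G.S.x2.1 p)
    have h2 : Real.exp (-(1 / 10 * G.S.x2.1 p)) =
        Real.exp (1 / 10 * G.S.x2.1 p) * Real.exp (-(1 / 5 * G.S.x2.1 p)) := by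
      rw [← Real.exp_add]; congr 1; ring
    rw [Real.norm_of_nonneg (by positivity), h2]
    nlinarith [G.rt_le p, Real.exp_pos (-(1 / 5 * G.S.x2.1 p)), G.x2_nonneg p]

namespace CFam

variable {G} {K : Set X} {U : Set V} {C : ℝ} {g : V → G.SmC} {Y : V → Fin 3 → G.SmC}
  (h : G.CFam K U C g Y) {z : V} {p : X}
include h

theorem hd (hz : z ∈ U) (hp : p ∈ K) : HD ℂ (fun v => G.lagC (g v) (Y v) p) z fun w =>
    G.dlagC (g z) (Y z) (fderiv ℂ (fun v => (g v).1 p) z w)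
      (fun c => fderiv ℂ (fun v => (Y v c).1 p) z w)
      (fun a c => fderiv ℂ (fun v => (G.SC.D a (Y v c)).1 p) z w) p := by
  have n := h.op.mem_nhds hz
  have d1 := HD.of_diff ((h.hg p hp).differentiableAt n)
  have d2 := fun c => HD.of_diff ((h.hY p hp c).differentiableAt n)
  have d3 := fun a c => HD.of_diff ((h.hJ p hp a c).differentiableAt n)
  have d4 := (HD.dot (u := fun v => val (Y v) p) (v := fun v => val (Y v) p) d2 d2).comp
    (ψ := fun w => Complex.exp (-w / 4)) ((hasDerivAt_neg _).div_const 4).cexp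
  have s := (h.cl z hz p hp).slit
  have fr : Gc.Fr (Cj.nC G p) (JC (Y z) p) := ⟨G.nC_nC p, fun c => n_D _ p⟩
  rw [GX_val] at s
  have d5 := (HD.G2 (J := fun v => JC (Y v) p) (Cj.nC G p) d3).comp (Act.sqrt_hd s)
  simp only [lagC, dlagC, dot_val, GX_val]
  refine (d1.mul (d4.mul d5)).congr fun w => ?_
  have e : ∀ a, val (G.SC.WX (Y z) a) p = Wv (JC (Y z) p) a := fun a => funext fun c => WX_val _ _ a c
  simp only [fr.dG2_eq, e, dot_comm _ (val (Y z) p)]
  ring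

theorem lag_le (hz : z ∈ U) (p : X) : ‖G.lagC (g z) (Y z) p‖ ≤
    |C| * (G.rt p * (6 * Real.exp (-(1 / 5 * G.S.x2.1 p)))) := by
  have h0 := G.one_le_rt p
  by_cases hp : p ∈ K
  · refine ((h.cl z hz p hp).lag_le _).trans ?_
    rw [← mul_assoc |C|]
    exact mul_le_mul_of_nonneg_right ((h.bd z hz p hp).trans
      (mul_le_mul_of_nonneg_right (le_abs_self C) (by linarith))) (by positivity)
  · rw [lagC, h.off z hz p hp, zero_mul, norm_zero]; positivity

theorem lag_diff (p : X) : DifferentiableOn ℂ (fun z => G.lagC (g z) (Y z) p) U := by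
  by_cases hp : p ∈ K
  · exact fun z hz => (h.hd hz hp).diff.differentiableWithinAt
  · exact (differentiableOn_const (0 : ℂ)).congr fun z hz => by
      rw [lagC, h.off z hz p hp, zero_mul]

theorem intg (hz : z ∈ U) : Integrable (G.lagC (g z) (Y z)) G.M.mu :=
  (G.intg_cW.const_mul _).mono' (G.aesm_lagC _ _) (.of_forall (h.lag_le hz))

theorem norm_le (hz : z ∈ U) : ‖G.actC (g z) (Y z)‖ ≤ |C| * G.cW :=
  (norm_integral_le_of_norm_le (G.intg_cW.const_mul _) (.of_forall (h.lag_le hz))).trans_eq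
    (integral_const_mul _ _)

theorem diffOn : DifferentiableOn ℂ (fun z => G.actC (g z) (Y z)) U :=
  H.int_diffOn h.op (G.intg_cW.const_mul _) (fun _ _ => G.aesm_lagC _ _) (.of_forall h.lag_diff)
    (.of_forall fun p _ hz => h.lag_le hz p)

theorem holAt (hz : z ∈ U) : ∀ᶠ w in 𝓝 z, DifferentiableAt ℂ (fun z => G.actC (g z) (Y z)) w :=
  (h.op.eventually_mem hz).mono fun _ hw => h.diffOn.differentiableAt (h.op.mem_nhds hw)

theorem fd_int (hz : z ∈ U) (v : V) :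
    Integrable (fun p => fderiv ℂ (fun z => G.lagC (g z) (Y z) p) z v) G.M.mu ∧
    fderiv ℂ (fun z => G.actC (g z) (Y z)) z v =
      ∫ p, fderiv ℂ (fun z => G.lagC (g z) (Y z) p) z v ∂G.M.mu :=
  H.int_fderiv h.op (G.intg_cW.const_mul _) (fun _ _ => G.aesm_lagC _ _) (.of_forall h.lag_diff)
    (.of_forall fun p _ hz => h.lag_le hz p) hz v

/-- the derivative where the weight vanishes -/
theorem fd_zero (hz : z ∈ U) (h0 : ∀ p ∈ K, (g z).1 p = 0) (v : V) {g' : G.SmC}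
    (h1 : ∀ p, p ∉ K → g'.1 p = 0) (h2 : ∀ p ∈ K, fderiv ℂ (fun z => (g z).1 p) z v = g'.1 p) :
    fderiv ℂ (fun z => G.actC (g z) (Y z)) z v = G.actC g' (Y z) := by
  refine (h.fd_int hz v).2.trans (integral_congr_ae (.of_forall fun p => ?_))
  by_cases hp : p ∈ K
  · simp only [(h.hd hz hp).eq]
    simp only [dlagC, lagC, h0 p hp, h2 p hp]
    ring
  · have e : (fun v => G.lagC (g v) (Y v) p) =ᶠ[𝓝 z] fun _ => 0 :=
      (h.op.eventually_mem hz).mono fun v hv => by simp only [lagC, h.off v hv p hp, zero_mul]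
    simp only [e.fderiv_eq]
    simp [lagC, h1 p hp]

theorem cj_eq (hz : z ∈ U) :
    G.actC (G.cj (g z)) (fun c => G.cj (Y z c)) = conj (G.actC (g z) (Y z)) :=
  G.actC_cj fun p hp => (h.cl z hz p (by_contra fun k => hp (h.off z hz p k))).slit

end CFam

end Crest.Agent.N250.WS.Geo

end
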