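import Crest.Agent.N250.Gc.Lin

/-!
# Row 250 (helper13): pointwise bounds for maps close to the identity
-/

set_option autoImplicit false

noncomputable section

namespace Crest.Agent.N250.Av

open Gc

variable {u v n : Fin 3 → ℂ} {a b : ℝ}

theorem dot_le (hu : ∀ c, ‖u c‖ ≤ a) (hv : ∀ c, ‖v c‖ ≤ b) : ‖dot u v‖ ≤ 3 * (a * b) := by
  have k : ∀ c, ‖u c * v c‖ ≤ a * b := fun c => norm_mul_le_of_le (hu c) (hv c)
  rw [dot, Fin.sum_univ_three]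
  linarith [norm_add₃_le (a := u 0 * v 0) (b := u 1 * v 1) (c := u 2 * v 2), k 0, k 1, k 2]

theorem cr_le (hu : ∀ c, ‖u c‖ ≤ a) (hv : ∀ c, ‖v c‖ ≤ b) (c : Fin 3) :
    ‖cr u v c‖ ≤ 2 * (a * b) :=
  (norm_sub_le_of_le (norm_mul_le_of_le (hu _) (hv _)) (norm_mul_le_of_le (hu _) (hv _))).trans_eq
    (by ring)

theorem P0_le (hn : ∀ c, ‖n c‖ ≤ 1) (c d : Fin 3) : ‖P0 n c d‖ ≤ 2 := by
  refine (norm_sub_le_of_le (r₁ := 1) ?_ (norm_mul_le_of_le (hn c) (hn d))).trans_eq (by ring)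
  split_ifs <;> simp

theorem Nv_sub_le {J : Fin 3 → Fin 3 → ℂ} (hn : ∀ c, ‖n c‖ ≤ 1)
    (hJ : ∀ c d, ‖J c d - P0 n c d‖ ≤ 1 / 400) (c : Fin 3) : ‖Nv n J c - n c‖ ≤ 1 / 16 := by
  have e : Nv n J = n + N1 n (P0 n) (J - P0 n) + Nv n (J - P0 n) := by
    conv_lhs => rw [← add_sub_cancel (P0 n) J, Nv_add, Nv_P0]
  have h1 : ‖N1 n (P0 n) (J - P0 n) c‖ ≤ _ := dot_le (v := fun d => _ + _) hn fun d =>
    norm_add_le_of_le (cr_le (P0_le hn _) (hJ _) c) (cr_le (hJ _) (P0_le hn _) c)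
  have h2 : ‖Nv n (J - P0 n) c‖ ≤ _ := dot_le (v := fun d => cr _ _ c) hn fun d =>
    cr_le (hJ _) (hJ _) c
  rw [e, Pi.add_apply, Pi.add_apply, add_assoc, add_sub_cancel_left]
  exact (norm_add_le_of_le h1 h2).trans (by norm_num)

theorem G2_sub_le {J : Fin 3 → Fin 3 → ℂ} (hn : ∀ c, ‖n c‖ ≤ 1) (h1 : dot n n = 1)
    (hJ : ∀ c d, ‖J c d - P0 n c d‖ ≤ 1 / 400) : ‖G2 n J - 1‖ ≤ 1 / 2 := by
  have e : G2 n J - 1 = 2 * dot n (Nv n J - n) + dot (Nv n J - n) (Nv n J - n) := by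
    rw [← h1]; simp only [G2, dot, Fin.sum_univ_three, Pi.sub_apply]; ring
  have k := Nv_sub_le hn hJ
  rw [e]
  refine (norm_add_le_of_le (norm_mul_le_of_le (r₁ := 2) (by simp)
    (dot_le (v := Nv n J - n) hn k)) (dot_le (u := Nv n J - n) (v := Nv n J - n) k k)).trans ?_
  norm_num

theorem dot_sub_le {x : Fin 3 → ℂ} {r : ℝ} (hx : ∀ c, ‖x c‖ ≤ r) (h : ∀ c, ‖u c - x c‖ ≤ r / 400) :
    ‖dot u u - dot x x‖ ≤ r ^ 2 / 50 := by
  have e : dot u u - dot x x = 2 * dot x (u - x) + dot (u - x) (u - x) := by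
    simp only [dot, Fin.sum_univ_three, Pi.sub_apply]; ring
  rw [e]
  refine (norm_add_le_of_le (norm_mul_le_of_le (r₁ := 2) (by simp)
    (dot_le (v := u - x) hx h)) (dot_le (u := u - x) (v := u - x) h h)).trans ?_
  nlinarith [sq_nonneg r]

theorem slit_of {z : ℂ} (h : ‖z - 1‖ ≤ 1 / 2) : z ∈ Complex.slitPlane := by
  have := Complex.mem_slitPlane_of_norm_lt_one (z := z - 1) (h.trans_lt (by norm_num))
  rwa [add_sub_cancel] at this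

end Crest.Agent.N250.Av

end
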