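import Crest.Agent.N250.Av.Core
import Crest.Agent.N250.Nq.Defs

/-!
# Row 250 (helper13): the maps `M (x + u Z)` are close to `x`; core integrals in the jets
-/

set_option autoImplicit false
set_option linter.unusedSectionVars false
open MeasureTheory Set Filter Topology Metric

noncomputable section

namespace Crest.Agent.N250.Nq.Dt

open Gc WS

variable {X : Type} [TopologicalSpace X] [MeasurableSpace X] {G : Geo X} {J κ : Type}
  [Fintype J] [Fintype κ] (D : Dt G J κ)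

theorem mv_val (T : Mt J) (w : Fin 3 → G.R) (c : Fin 3) (p : X) :
    (D.mv T w c).1 p = ∑ j, ∑ d, T j c d * ((D.χ j * w d).1 p : ℂ) := by
  rw [← Cj.ev_apply, mv]
  simp only [map_sum (Cj.ev G p)]
  rfl

theorem D_mv_val (T : Mt J) (w : Fin 3 → G.R) (a c : Fin 3) (p : X) :
    (G.SC.D a (D.mv T w c)).1 p = ∑ j, ∑ d, T j c d * ((G.S.D a (D.χ j * w d)).1 p : ℂ) := by
  rw [← Cj.ev_apply, mv, ← G.DLin_apply]
  simp only [map_sum (G.DLin a), map_smul (G.DLin a), G.DLin_apply, G.D_oR, map_sum (Cj.ev G p)]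
  rfl

theorem Xh_val (u : G.SmC) (T : Mt J) (c : Fin 3) (p : X) : (D.Xh u T c).1 p = (G.SC.x c).1 p +
    ((D.mv T G.S.x c).1 p + u.1 p * (((D.Z c).1 p : ℂ) + (D.mv T D.Z c).1 p)) := rfl

theorem D_Xh_val (u : G.SmC) (T : Mt J) (a c : Fin 3) (p : X) :
    (G.SC.D a (D.Xh u T c)).1 p = (G.SC.D a (G.SC.x c)).1 p + ((G.SC.D a (D.mv T G.S.x c)).1 p +
      (u.1 p * (((G.S.D a (D.Z c)).1 p : ℂ) + (G.SC.D a (D.mv T D.Z c)).1 p) +
        (G.SC.D a u).1 p * (((D.Z c).1 p : ℂ) + (D.mv T D.Z c).1 p))) := by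
  have e : G.SC.D a (D.Xh u T c) = G.SC.D a (G.SC.x c) + (G.SC.D a (D.mv T G.S.x c) +
      (u * (G.oR (G.S.D a (D.Z c)) + G.SC.D a (D.mv T D.Z c)) + G.SC.D a u * D.VV T c)) := by
    simp only [Xh, yy, VV, Pi.add_apply, G.hypC.add, G.hypC.mul, G.D_oR]
  rw [e]; rfl

theorem Xh_zero : D.Xh 0 0 = G.SC.x := by
  funext c; simp [Xh, yy, mv]

theorem sum_le {T : Mt J} {f : J → Fin 3 → ℝ} {η B r : ℝ} (hT : ‖T‖ ≤ η)
    (hf : ∀ j d, r * |f j d| ≤ B) (hr : 0 ≤ r) (c : Fin 3) :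
    r * ‖∑ j, ∑ d, T j c d * (f j d : ℂ)‖ ≤ η * (3 * Fintype.card J * B) := by
  have k : ∀ j d, r * ‖T j c d * (f j d : ℂ)‖ ≤ η * B := fun j d => by
    rw [norm_mul, Complex.norm_real, Real.norm_eq_abs, mul_left_comm]
    exact mul_le_mul (((norm_le_pi_norm _ d).trans ((norm_le_pi_norm _ c).trans
      (norm_le_pi_norm T j))).trans hT) (hf j d) (by positivity) ((norm_nonneg _).trans hT)
  refine (mul_le_mul_of_nonneg_left (norm_sum_le_of_le _ fun j _ => norm_sum_le _ _) hr).trans ?_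
  simp only [Finset.mul_sum]
  refine (Finset.sum_le_sum fun j _ => Finset.sum_le_sum fun d _ => k j d).trans_eq ?_
  simp only [Finset.sum_const, Finset.card_univ, Fintype.card_fin, nsmul_eq_mul]
  push_cast; ring

theorem bd_cs {χ : G.R} (hc : HasCompactSupport (G.ζ * χ).1) (w : G.R) : ∃ B : ℝ, ∀ p,
    G.ζ.1 p = 1 → |(χ * w).1 p| ≤ B ∧ ∀ a, G.ρ.1 p * |(G.S.D a (χ * w)).1 p| ≤ B := by
  have h1 : Continuous fun p => |(χ * w).1 p| + ∑ a, G.ρ.1 p * |(G.S.D a (χ * w)).1 p| :=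
    (G.contR _).abs.add (continuous_finsetSum _ fun a _ => (G.contR _).mul (G.contR _).abs)
  obtain ⟨B, hB⟩ := hc.isCompact.exists_bound_of_continuousOn h1.continuousOn
  refine ⟨|B|, fun p hp => ?_⟩
  have h0 := fun a => mul_nonneg (G.ρ_pos p).le (abs_nonneg ((G.S.D a (χ * w)).1 p))
  by_cases k : p ∈ tsupport (G.ζ * χ).1
  · have h2 := ((le_abs_self _).trans (hB p k)).trans (le_abs_self B)
    refine ⟨by linarith [Finset.sum_nonneg (s := Finset.univ) fun a _ => h0 a], fun a => ?_⟩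
    linarith [Finset.single_le_sum (fun a _ => h0 a) (Finset.mem_univ a), abs_nonneg ((χ * w).1 p)]
  · have h3 : p ∉ tsupport (χ * w).1 := by
      rw [notMem_tsupport_iff_eventuallyEq] at k ⊢
      filter_upwards [k, (G.contR G.ζ).continuousAt.eventually_ne (hp.trans_ne one_ne_zero)]
        with q h4 h5
      exact mul_eq_zero_of_left ((mul_eq_zero.1 h4).resolve_left h5) _
    refine ⟨?_, fun a => ?_⟩
    · rw [image_eq_zero_of_notMem_tsupport h3, abs_zero]; exact abs_nonneg _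
    · rw [G.D_eq_zero_of_notMem h3, abs_zero, mul_zero]; exact abs_nonneg _

variable {D}

theorem Good.bd (h : D.Good) : ∃ B : ℝ, 0 ≤ B ∧ ∀ p, G.ζ.1 p = 1 →
    (∀ c, |(D.Z c).1 p| ≤ B) ∧ (∀ a c, G.ρ.1 p * |(G.S.D a (D.Z c)).1 p| ≤ B) ∧
    ∀ j d, (|(D.χ j * G.S.x d).1 p| ≤ B ∧ ∀ a, G.ρ.1 p * |(G.S.D a (D.χ j * G.S.x d)).1 p| ≤ B) ∧
      |(D.χ j * D.Z d).1 p| ≤ B ∧ ∀ a, G.ρ.1 p * |(G.S.D a (D.χ j * D.Z d)).1 p| ≤ B := by
  have e : ∀ {P : ℝ → Prop}, (∃ B, ∀ B', B ≤ B' → P B') → ∀ᶠ B in atTop, P B := fun h =>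
    eventually_atTop.2 h
  have h1 : ∀ c, ∀ᶠ B in atTop, ∀ p, |(D.Z c).1 p| ≤ B := fun c => e (by
    obtain ⟨C, hC⟩ := h.symZ c []
    refine ⟨C, fun B hB p => le_trans ?_ hB⟩
    have := hC p
    rwa [List.length_nil, Nat.cast_zero, sub_zero, zpow_zero, mul_one] at this)
  have h2 : ∀ a c, ∀ᶠ B in atTop, ∀ p, G.ρ.1 p * |(G.S.D a (D.Z c)).1 p| ≤ B := fun a c => e (by
    obtain ⟨C, hC⟩ := h.symZ c [a]
    refine ⟨C, fun B hB p => le_trans ?_ hB⟩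
    have := hC p
    rwa [List.length_singleton, Nat.cast_one, zero_sub, zpow_neg_one, ← div_eq_mul_inv,
      le_div_iff₀' (G.ρ_pos p)] at this)
  have h3 : ∀ j (w : G.R), ∀ᶠ B in atTop, ∀ p, G.ζ.1 p = 1 →
      |(D.χ j * w).1 p| ≤ B ∧ ∀ a, G.ρ.1 p * |(G.S.D a (D.χ j * w)).1 p| ≤ B := fun j w => e (by
    obtain ⟨C, hC⟩ := bd_cs (h.cχ j) w
    exact ⟨C, fun B hB p hp => ⟨(hC p hp).1.trans hB, fun a => ((hC p hp).2 a).trans hB⟩⟩)
  obtain ⟨B, k0, k1, k2, k3⟩ := ((eventually_ge_atTop 0).and ((eventually_all.2 h1).and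
    ((eventually_all.2 fun a => eventually_all.2 (h2 a)).and (eventually_all.2 fun j =>
      eventually_all.2 fun d => (h3 j (G.S.x d)).and (h3 j (D.Z d)))))).exists
  exact ⟨B, k0, fun p hp => ⟨fun c => k1 c p, fun a c => k2 a c p,
    fun j d => ⟨(k3 j d).1 p hp, (k3 j d).2 p hp⟩⟩⟩

/-- small jets and small rotations give maps close to `x` -/
theorem Good.cl (h : D.Good) : ∃ η : ℝ, 0 < η ∧ η ≤ 1 ∧ ∀ (u : G.SmC) (T : Mt J) (p : X),
    G.ζ.1 p = 1 → ‖T‖ ≤ η → ‖u.1 p‖ ≤ η * G.ρ.1 p → (∀ a, ‖(G.SC.D a u).1 p‖ ≤ η) →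
    G.Cl (D.Xh u T) p := by
  obtain ⟨B, hB, h⟩ := h.bd
  set M : ℝ := 3 * Fintype.card J * B with hM
  have M0 : 0 ≤ M := by positivity
  obtain ⟨η, η0, η1, η2⟩ : ∃ η : ℝ, 0 < η ∧ η ≤ 1 ∧ η * (B + M) ≤ 1 / 1200 :=
    ⟨1 / (1200 * (B + M) + 1), by positivity, (div_le_one (by positivity)).2 (by nlinarith), by
      rw [div_mul_eq_mul_div, div_le_div_iff₀ (by positivity) (by norm_num)]; linarith⟩
  refine ⟨η, η0, η1, fun u T p hp hT hu hD => ?_⟩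
  obtain ⟨a1, a2, a3⟩ := h p hp
  have r1 := G.one_le p
  have r2 := G.ρ_le_rt p
  have s0 : ∀ {f : J → Fin 3 → ℝ}, (∀ j d, |f j d| ≤ B) → ∀ c,
      ‖∑ j, ∑ d, T j c d * (f j d : ℂ)‖ ≤ η * M := fun hf c => by
    simpa using sum_le (r := 1) hT (by simpa using hf) zero_le_one c
  have hM' : η * M ≤ M := mul_le_of_le_one_left M0 η1
  have hB' : 0 ≤ η * B := by positivity
  have hV : ∀ c, ‖((D.Z c).1 p : ℂ) + (D.mv T D.Z c).1 p‖ ≤ B + M := fun c =>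
    norm_add_le_of_le (by simpa using a1 c)
      (D.mv_val T _ c p ▸ (s0 (fun j d => (a3 j d).2.1) c).trans hM')
  refine ⟨fun c => ?_, fun a c => ?_⟩
  · rw [Xh_val, add_sub_cancel_left]
    refine (norm_add_le_of_le (D.mv_val T _ c p ▸ s0 (fun j d => (a3 j d).1.1) c)
      (norm_mul_le_of_le hu (hV c))).trans ?_
    nlinarith [mul_le_mul_of_nonneg_left η2 (zero_le_one.trans r1)]
  · rw [D_Xh_val, add_sub_cancel_left]
    have b1 := sum_le hT (fun j d => (a3 j d).1.2 a) (zero_le_one.trans r1) c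
    have b2 := sum_le hT (fun j d => (a3 j d).2.2 a) (zero_le_one.trans r1) c
    rw [← D_mv_val, ← hM] at b1 b2
    have b3 : G.ρ.1 p * ‖((G.S.D a (D.Z c)).1 p : ℂ) + (G.SC.D a (D.mv T D.Z c)).1 p‖ ≤ B + M := by
      refine (mul_le_mul_of_nonneg_left (norm_add_le _ _) (zero_le_one.trans r1)).trans ?_
      rw [mul_add, Complex.norm_real, Real.norm_eq_abs]
      linarith [a2 a c]
    refine (norm_add_le_of_le ((le_mul_of_one_le_left (norm_nonneg _) r1).trans b1)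
      (norm_add_le_of_le (norm_mul_le_of_le hu le_rfl) (norm_mul_le_of_le (hD a) (hV c)))).trans ?_
    nlinarith [mul_le_mul_of_nonneg_left b3 η0.le]

section Hol

variable {V : Type} [NormedAddCommGroup V] [NormedSpace ℂ V] {U : Set V} {u : V → G.SmC}
  {T : V → Mt J} {p : X} (D)

theorem diff_sum (hT : DifferentiableOn ℂ T U) (f : J → Fin 3 → ℂ) (c : Fin 3) :
    DifferentiableOn ℂ (fun z => ∑ j, ∑ d, T z j c d * f j d) U :=
  DifferentiableOn.fun_sum fun j _ => DifferentiableOn.fun_sum fun d _ =>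
    (differentiableOn_pi.1 (differentiableOn_pi.1 (differentiableOn_pi.1 hT j) c) d).mul_const _

theorem diff_Xh (hT : DifferentiableOn ℂ T U) (hu : DifferentiableOn ℂ (fun z => (u z).1 p) U)
    (c : Fin 3) : DifferentiableOn ℂ (fun z => (D.Xh (u z) (T z) c).1 p) U := by
  simp only [Xh_val, mv_val]
  exact ((diff_sum hT _ c).fun_add (hu.fun_mul ((diff_sum hT _ c).const_add _))).const_add _

theorem diff_D_Xh (hT : DifferentiableOn ℂ T U) (hu : DifferentiableOn ℂ (fun z => (u z).1 p) U)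
    (a : Fin 3) (hD : DifferentiableOn ℂ (fun z => (G.SC.D a (u z)).1 p) U) (c : Fin 3) :
    DifferentiableOn ℂ (fun z => (G.SC.D a (D.Xh (u z) (T z) c)).1 p) U := by
  simp only [D_Xh_val, mv_val, D_mv_val]
  exact ((diff_sum hT _ c).fun_add ((hu.fun_mul ((diff_sum hT _ c).const_add _)).fun_add
    (hD.fun_mul ((diff_sum hT _ c).const_add _)))).const_add _

end Hol

theorem cj_mv (T : Mt J) (w : Fin 3 → G.R) (c : Fin 3) :
    G.cj (D.mv T w c) = D.mv (star T) w c := by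
  simp only [mv, map_sum, G.cj_smul, G.cj_oR]; rfl

theorem cj_Xh (u : G.SmC) (T : Mt J) (c : Fin 3) :
    G.cj (D.Xh u T c) = D.Xh (G.cj u) (star T) c := by
  simp only [Xh, yy, VV, Pi.add_apply, map_add, map_mul, cj_mv, G.cj_oR, G.homCj.x]

section Jets

variable [BorelSpace X] {σ : Scale G} {κ' : Type} [Fintype κ'] {ψ : κ' → G.R} (Jt : σ.Jets ψ)
  {V : Type} [NormedAddCommGroup V] [NormedSpace ℂ V] (π : V →L[ℂ] σ.AA × (κ' → ℂ))
  {T : V → Mt J} {p : X}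

theorem w_val (ξ : σ.AA × (κ' → ℂ)) (hp : G.ζ.1 p = 1) :
    (σ.wG ψ ξ).1 p = G.ρ.1 p * σ.evL p (Jt.J0 ξ) := by
  rw [Scale.evL_apply, Jt.val0]
  change _ = _ * (((G.ζ.1 p * G.ι.1 p : ℝ) : ℂ) * _)
  rw [hp, one_mul, ← mul_assoc, ← Complex.ofReal_mul, G.ρι_ev, Complex.ofReal_one, one_mul]

theorem Dw_val (ξ : σ.AA × (κ' → ℂ)) (hp : G.ζ.1 p = 1) (a : Fin 3) :
    (G.SC.D a (σ.wG ψ ξ)).1 p = σ.evL p (Jt.J1 a ξ) := by
  rw [Scale.evL_apply, Jt.val1]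
  change _ = ((G.ζ.1 p : ℝ) : ℂ) * _
  rw [hp, Complex.ofReal_one, one_mul]

include Jt

theorem w_zero (hp : G.ζ.1 p = 1) : (σ.wG ψ (π 0)).1 p = 0 := by
  rw [w_val Jt _ hp]; simp only [map_zero, mul_zero]

theorem hasF_w (hp : G.ζ.1 p = 1) (z : V) : HasFDerivAt (fun z => (σ.wG ψ (π z)).1 p)
    ((G.ρ.1 p : ℂ) • (σ.evL p).comp (Jt.J0.comp π)) z := by
  simp only [w_val Jt _ hp]
  exact ((σ.evL p).comp (Jt.J0.comp π)).hasFDerivAt.const_mul _

theorem fd_w (hp : G.ζ.1 p = 1) (z v : V) :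
    fderiv ℂ (fun z => (σ.wG ψ (π z)).1 p) z v = (σ.wG ψ (π v)).1 p := by
  rw [(hasF_w Jt π hp z).fderiv, w_val Jt _ hp]; rfl

theorem diff_Dw (hp : G.ζ.1 p = 1) (a : Fin 3) :
    Differentiable ℂ fun z => (G.SC.D a (σ.wG ψ (π z))).1 p := by
  simp only [Dw_val Jt _ hp]
  exact ((σ.evL p).comp ((Jt.J1 a).comp π)).differentiable

/-- the core families: constant weights and weights `s w` -/
theorem Good.cfam (h : D.Good) (hT : ∀ᶠ z in 𝓝 0, DifferentiableAt ℂ T z) (h0 : T 0 = 0) :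
    ∃ r : ℝ, 0 < r ∧ ∀ (s : G.R) (C : ℝ), (∀ p, s.1 p ≠ 0 → G.ζ.1 p = 1) → (∀ p, |s.1 p| ≤ C) →
      G.CFam {p | G.ζ.1 p = 1} (ball 0 r) C (fun _ => G.oR s)
        (fun z => D.Xh (σ.wG ψ (π z)) (T z)) ∧
      G.CFam {p | G.ζ.1 p = 1} (ball 0 r) C (fun z => G.oR s * σ.wG ψ (π z))
        fun z => D.Xh (σ.wG ψ (π z)) (T z) := by
  obtain ⟨η, η0, η1, hc⟩ := h.cl
  have k : ∀ {W : Type} [NormedAddCommGroup W] {f : V → W}, ContinuousAt f 0 → f 0 = 0 →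
      ∀ᶠ z in 𝓝 0, ‖f z‖ ≤ η := fun hf h0 =>
    (hf.norm.eventually (gt_mem_nhds (by simpa only [h0, norm_zero] using η0))).mono fun _ => le_of_lt
  obtain ⟨r, r0, hr⟩ := Metric.eventually_nhds_iff_ball.1 (hT.and
    ((k hT.self_of_nhds.continuousAt h0).and
      ((k (Jt.J0.comp π).continuous.continuousAt (map_zero _)).and (eventually_all.2 fun a =>
        k ((Jt.J1 a).comp π).continuous.continuousAt (map_zero _)))))
  have dT : DifferentiableOn ℂ T (ball 0 r) := fun z hz => (hr z hz).1.differentiableWithinAt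
  have b0 : ∀ z ∈ ball 0 r, ∀ p, G.ζ.1 p = 1 → ‖(σ.wG ψ (π z)).1 p‖ ≤ η * G.ρ.1 p :=
    fun z hz p hp => by
      rw [w_val Jt _ hp, norm_mul, Complex.norm_real, Real.norm_of_nonneg (G.ρ_pos p).le, mul_comm]
      exact mul_le_mul_of_nonneg_right ((Scale.norm_val_le _ p).trans (hr z hz).2.2.1)
        (G.ρ_pos p).le
  have cl : ∀ z ∈ ball 0 r, ∀ p, G.ζ.1 p = 1 → G.Cl (D.Xh (σ.wG ψ (π z)) (T z)) p :=
    fun z hz p hp => hc _ _ p hp (hr z hz).2.1 (b0 z hz p hp) fun a => by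
      rw [Dw_val Jt _ hp]; exact (Scale.norm_val_le _ p).trans ((hr z hz).2.2.2 a)
  have dw : ∀ p, G.ζ.1 p = 1 → DifferentiableOn ℂ (fun z => (σ.wG ψ (π z)).1 p) (ball 0 r) :=
    fun p hp z _ => (hasF_w Jt π hp z).differentiableAt.differentiableWithinAt
  have dY := fun p hp c => D.diff_Xh dT (dw p hp) c
  have dJ := fun p hp a c => D.diff_D_Xh dT (dw p hp) a (diff_Dw Jt π hp a).differentiableOn c
  refine ⟨r, r0, fun s C hs hC => ?_⟩
  have s0 : ∀ p, G.ζ.1 p ≠ 1 → (G.oR s).1 p = 0 := fun p hp =>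
    Complex.ofReal_eq_zero.2 (by_contra fun k => hp (hs p k))
  have s1 : ∀ p, ‖(G.oR s).1 p‖ ≤ C := fun p => by simpa using hC p
  have C0 : ∀ p : X, 0 ≤ C := fun p => (norm_nonneg _).trans (s1 p)
  refine ⟨⟨isOpen_ball, fun _ _ => s0, fun _ _ p _ =>
    (s1 p).trans (le_mul_of_one_le_right (C0 p) (G.one_le_rt p)), cl,
    fun _ _ => differentiableOn_const _, dY, dJ⟩, ⟨isOpen_ball, fun _ _ p hp =>
    mul_eq_zero_of_left (s0 p hp) _, fun z hz p hp => norm_mul_le_of_le (s1 p) ((b0 z hz p hp).trans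
      ((mul_le_of_le_one_left (G.ρ_pos p).le η1).trans (G.ρ_le_rt p))), cl,
    fun p hp => (dw p hp).const_mul _, dY, dJ⟩⟩

end Jets

end Crest.Agent.N250.Nq.Dt

end
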