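import Crest.Agent.N250.Av.Lim
import Crest.Agent.N250.Ce.Close
import Crest.Agent.N250.Gi.Wf

/-!
# Row 250 (helper26): the action of the solver's ends tends to the action of the limit end
-/

set_option autoImplicit false
open MeasureTheory Set Filter Topology Metric

noncomputable section

namespace Crest.Agent.N250.Av

open B1

variable {ℓ : Ell} {R K ε ε1 C : ℝ} {U : Par ℓ → Jt ℓ}

theorem mem_of_end (hU : IsEnd R K (13 / 8) (7 / 4) ε ε1 C ℓ U) (hR : 2 ≤ R) (hK : 32 ≤ K)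
    (hC : 0 ≤ C) (he : C * (3 / K + ε) ≤ 1 / 36) {z : Par ℓ}
    (hz : z ∈ Dom R K (13 / 8) (7 / 4) ε) : Mem R K (13 / 8) (7 / 4) z.1 z.2.1 (U z) :=
  Mem.of Ce.ex0 hR hK hz (hU.sol z hz).jet le_rfl (Ce.inB_of hU (by linarith) hC he hz)

theorem hN_zero {N : ℕ} (hN : HJ.N0 ≤ N) :
    Tendsto (fun X : ℝ => X * ‖Gi.hN N X 0‖) atTop (𝓝 0) := by
  have h1 : Tendsto (fun X : ℝ => (X ^ 2)⁻¹) atTop (𝓝 0) :=
    tendsto_inv_atTop_zero.comp (tendsto_pow_atTop two_ne_zero)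
  have h2 := h1.const_mul 12000
  rw [mul_zero] at h2
  refine squeeze_zero' ((eventually_ge_atTop 0).mono fun X hX => by positivity) ?_ h2
  filter_upwards [eventually_gt_atTop 0, h1.eventually (ge_mem_nhds
    (show (0 : ℝ) < 1 / (7 * ((N : ℝ) + 1)) by positivity))] with X hX hw
  have e1 : et 0 X = 1 := by simp [et]
  have e2 : ‖HJ.ww X 1‖ ≤ (X ^ 2)⁻¹ := by
    rw [HJ.ww, norm_div, norm_one, mul_one, norm_mul, Complex.norm_two, norm_pow, Complex.norm_real,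
      Real.norm_of_nonneg hX.le, one_div]
    exact inv_anti₀ (by positivity) (by nlinarith [sq_nonneg X])
  have hA : HJ.Adm N X 1 := ⟨by exact_mod_cast hX.ne', by simp, by simp, e2.trans hw⟩
  have h3 := hA.slope_sub hN
  rw [sub_self, mul_zero, sub_zero, norm_mul, Complex.norm_real, Real.norm_of_nonneg hX.le] at h3
  rw [Gi.hN, e1, zero_mul, sub_zero]
  linarith

/-- **the actions of the ends converge** -/
theorem end_lim (hU : IsEnd R K (13 / 8) (7 / 4) ε ε1 C ℓ U) (hR : 2 ≤ R) (hK : 32 ≤ K)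
    (hC : 0 ≤ C) (he : C * (3 / K + ε) ≤ 1 / 36) {b0 : Wi (omP 2)} {u : ℝ × ℝ → Fin 6 → ℂ}
    (hI : Ce.Idt ℓ R K ε U b0 u) (hok : ∀ q : ℝ × ℝ, R < q.1 → Act.Ok (u q 0) (u q 1) (u q 3))
    {ι : Type*} {l : Filter ι} [l.IsCountablyGenerated] {X : ι → ℝ} {a h : ι → ℂ}
    {b : ι → Wi (omP 2)} (hX : Tendsto X l atTop) (ha : Tendsto (fun i => ‖a i‖ * X i ^ 2) l (𝓝 0))
    (hh : Tendsto (fun i => X i * ‖h i‖) l (𝓝 0)) (hb : Tendsto b l (𝓝 b0)) {φ χ : ℝ → ℂ}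
    (hφ : Continuous φ) (hφ1 : ∀ x, ‖φ x‖ ≤ 1)
    (hχ : ∀ X, R + 2 ≤ X → ∀ s ∈ Icc (0 : ℝ) 1, χ s = φ (xr R X s)) :
    Tendsto (fun i => Act.actC χ R (X i) (a i) (U ((X i : ℂ), a i, wd (b i) (h i)))) l
      (𝓝 (actI R φ u)) := by
  have pR : 0 < R ^ (13 / 8 : ℝ) := Real.rpow_pos_of_pos (by linarith) _
  obtain ⟨δ, X0, hδ, H⟩ := hI 1 one_pos
  have room : R ^ (13 / 8 : ℝ) * ‖b0‖ < ε := by
    have := (H X0 le_rfl 0 0 (by simpa using hδ.le) (by simpa using hδ.le)).1.2.2.2.2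
    simpa [Ce.dn_wd] using this
  obtain ⟨m, hm⟩ : ∃ m, m = (ε - R ^ (13 / 8 : ℝ) * ‖b0‖) / 2 := ⟨_, rfl⟩
  have m0 : 0 < m := by rw [hm]; linarith
  have r0 : 0 < m / R ^ (13 / 8 : ℝ) := div_pos m0 pR
  have hd : ∀ᶠ i in l, ∀ b' ∈ ball b0 (m / R ^ (13 / 8 : ℝ)),
      ((X i : ℂ), a i, wd b' (h i)) ∈ Dom (ℓ := ℓ) R K (13 / 8) (7 / 4) ε := by
    filter_upwards [hX.eventually_ge_atTop X0, ha.eventually (ge_mem_nhds hδ),
      hh.eventually (ge_mem_nhds hδ), hh.eventually (ge_mem_nhds m0)] with i h1 h2 h3 h4 b' hb'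
    obtain ⟨d1, d2, d3, d4, -⟩ := (H _ h1 _ _ h2 h3).1
    refine ⟨d1, d2, d3, d4, ?_⟩
    rw [mem_ball_iff_norm, lt_div_iff₀' pR] at hb'
    have := mul_le_mul_of_nonneg_left (norm_le_insert' b' b0) pR.le
    simp only [Ce.dn_wd, Complex.ofReal_re]
    linarith
  have hb1 := hb.eventually (ball_mem_nhds b0 r0)
  refine actC_lim (K := K) (g := 13 / 8) (g' := 7 / 4) hX ?_ hφ hφ1
    ((hX.eventually_ge_atTop _).mono fun i hi => hχ _ hi) (fun L t ht => ?_) hok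
  · filter_upwards [hd, hb1] with i h1 h2 using mem_of_end hU hR hK hC he (h1 _ h2)
  · obtain ⟨δ', X1, hδ', H'⟩ := hI (t / 2) (half_pos ht)
    have hb2 := (tendsto_iff_norm_sub_tendsto_zero.1 hb).const_mul
      (2 * (C * (3 / K + ε) * 6) / (m / R ^ (13 / 8 : ℝ)))
    rw [mul_zero] at hb2
    filter_upwards [hd, hb1, hX.eventually_ge_atTop X1, ha.eventually (ge_mem_nhds hδ'),
      hh.eventually (ge_mem_nhds hδ'), hb2.eventually (ge_mem_nhds (half_pos ht))]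
      with i h1 h2 h3 h4 h5 h6 s θ k _
    have e1 := Ce.lip_b hU Ce.ex0 hR (by linarith) hC h1 h2 s θ k
    have e2 := (H' _ h3 _ _ h4 h5).2 s θ k
    exact (norm_sub_le_norm_sub_add_norm_sub _ _ _).trans ((add_le_add (e1.trans h6) e2).trans_eq
      (add_halves t))

end Crest.Agent.N250.Av

end
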