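import Crest.Agent.N250.Av.Bd

/-!
# Row 250 (helper26): the limit of the action of an end when the real cut tends to infinity
-/

set_option autoImplicit false
open MeasureTheory Set Filter Topology

noncomputable section

namespace Crest.Agent.N250.Av

open B1 Fm.Ac

variable {ℓ : Ell}

/-- the action of a function with jets `u` on the half cylinder `R < x`, cut-off `φ (x)` -/
def actI (R : ℝ) (φ : ℝ → ℂ) (u : ℝ × ℝ → Fin 6 → ℂ) : ℂ :=
  ∫ x in Ioi R, ∫ θ in (0 : ℝ)..(2 * Real.pi),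
    φ x * Act.Lag x (u (x, θ) 0) (u (x, θ) 1) (u (x, θ) 3)

theorem cont_lag {x v p q : ℂ} (h : Act.Ok v p q) :
    ContinuousAt (fun w : ℂ × ℂ × ℂ × ℂ => Act.Lag w.1 w.2.1 w.2.2.1 w.2.2.2) (x, v, p, q) := by
  have h2 : (2 : ℂ) * v ≠ 0 := mul_ne_zero two_ne_zero h.1
  have h1 : ContinuousAt (fun w : ℂ × ℂ × ℂ × ℂ => Act.Qf w.2.1 w.2.2.1 w.2.2.2) (x, v, p, q) := by
    unfold Act.Qf
    fun_prop (disch := exact h2)
  have h3 := ContinuousAt.comp_of_eq (g := Complex.sqrt) (Act.sqrt_hd h.2).continuousAt h1 rfl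
  refine ContinuousAt.mul h3 ?_
  unfold Act.Ef
  fun_prop

/-- the density of the action in the variable `x` -/
def den (φ : ℝ → ℂ) (R X : ℝ) (a : ℂ) (J : Jt ℓ) (q : ℝ × ℝ) : ℂ :=
  φ q.1 * Act.Lag q.1 (vk R X a J (tX R X) 0 q) (vk R X a J (tX R X) 1 q) (vk R X a J (tX R X) 3 q)

namespace Mem

variable {R K g g' X : ℝ} {a : ℂ} {J : Jt ℓ} (h : Mem R K g g' X a J) {φ : ℝ → ℂ}
include h

theorem RX' : R + 2 ≤ X := h.RX

theorem den_cont (hφ : Continuous φ) : ContinuousOn (den φ R X a J) (Icc R X ×ˢ univ) := by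
  refine (hφ.comp continuous_fst).continuousOn.mul fun q hq => ?_
  have c := fun k => (rd_tX h.RX').cont_vk (a := a) (J := J) k q hq
  exact ContinuousAt.comp_continuousWithinAt (f := fun q : ℝ × ℝ => ((q.1 : ℂ),
    vk R X a J (tX R X) 0 q, vk R X a J (tX R X) 1 q, vk R X a J (tX R X) 3 q))
    (cont_lag (h.regJ _ _)) ((Complex.continuous_ofReal.comp continuous_fst).continuousWithinAt.prodMk
      ((c 0).prodMk ((c 1).prodMk (c 3))))

theorem den_le (hφ : ∀ x, ‖φ x‖ ≤ 1) {q : ℝ × ℝ} (hq : q.1 ∈ Icc R X) :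
    ‖den φ R X a J q‖ ≤ 9 * Real.exp (-q.1 ^ 2 / 4) := by
  obtain ⟨s, hs⟩ := exists_xr h.RX' hq
  have h1 := h.lag_le s q.2
  rw [gam_real, Complex.ofReal_re, hs] at h1
  have e : tX R X q.1 = s := by rw [← hs, tX_xr h.RX']
  simp only [den, vk, e, norm_mul]
  exact (mul_le_of_le_one_left (norm_nonneg _) (hφ _)).trans h1

theorem oi_cont (hφ : Continuous φ) :
    ContinuousOn (fun x => ∫ θ in (0 : ℝ)..(2 * Real.pi), den φ R X a J (x, θ)) (Icc R X) := by
  rw [continuousOn_iff_continuous_domRestrict]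
  refine intervalIntegral.continuous_parametric_intervalIntegral_of_continuous' (μ := volume)
    (f := fun (x : Icc R X) θ => den φ R X a J (x, θ)) ?_ _ _
  exact (h.den_cont hφ).comp_continuous (f := fun p : Icc R X × ℝ => ((p.1 : ℝ), p.2)) (by fun_prop)
    fun p => ⟨p.1.2, trivial⟩

/-- the action for a real cut as an integral in `x` -/
theorem actC_eq (hφ : Continuous φ) {χ : ℝ → ℂ} (hχ : ∀ s ∈ Icc (0 : ℝ) 1, χ s = φ (xr R X s)) :
    Act.actC χ R X a J = ∫ x in R..X, ∫ θ in (0 : ℝ)..(2 * Real.pi), den φ R X a J (x, θ) := by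
  have := intervalIntegral.integral_deriv_smul_comp'' (a := 0) (b := 1) (f := xr R X)
    (f' := dxr R X) (g := fun x => ∫ θ in (0 : ℝ)..(2 * Real.pi), den φ R X a J (x, θ))
    (continuous_xr R X).continuousOn (fun s _ => (hasDerivAt_xr R X s).hasDerivWithinAt)
    (continuous_dxr R X).continuousOn
    ((h.oi_cont hφ).mono (by rw [uIcc_of_le zero_le_one, image_xr h.RX']))
  rw [xr_zero, xr_one] at this
  rw [← this, Act.actC, Act.act, Act.II]
  refine intervalIntegral.integral_congr fun s hs => ?_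
  rw [uIcc_of_le zero_le_one] at hs
  simp only [Function.comp_apply]
  rw [← intervalIntegral.integral_smul]
  refine intervalIntegral.integral_congr fun θ _ => ?_
  have e := tX_xr h.RX' ⟨s, hs⟩
  simp only [den, vk, e, Act.vf, B1.ex, projIcc_of_mem _ hs, gam_real, dgam_real, hχ s hs,
    Complex.real_smul]
  ring

end Mem

theorem intg_gauss (R : ℝ) : IntegrableOn (fun x : ℝ => 9 * Real.exp (-x ^ 2 / 4) * |2 * Real.pi - 0|)
    (Ioi R) := by
  have := (integrable_exp_neg_mul_sq (b := 1 / 4) (by norm_num)).integrableOn (s := Ioi R)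
  refine ((this.const_mul 9).mul_const |2 * Real.pi - 0|).congr (.of_forall fun x => ?_)
  simp only
  congr 3
  ring

/-- **the limit of the action** -/
theorem actC_lim {ι : Type*} {l : Filter ι} [l.IsCountablyGenerated] {R K g g' : ℝ} {X : ι → ℝ}
    {a : ι → ℂ} {J : ι → Jt ℓ} (hX : Tendsto X l atTop)
    (hm : ∀ᶠ i in l, Mem R K g g' (X i) (a i) (J i)) {φ : ℝ → ℂ} (hφ : Continuous φ)
    (hφ1 : ∀ x, ‖φ x‖ ≤ 1) {χ : ι → ℝ → ℂ}
    (hχ : ∀ᶠ i in l, ∀ s ∈ Icc (0 : ℝ) 1, χ i s = φ (xr R (X i) s)) {u : ℝ × ℝ → Fin 6 → ℂ}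
    (hu : ∀ L t : ℝ, 0 < t → ∀ᶠ i in l, ∀ (s : II) (θ : ℝ) (k : Fin 6), xr R (X i) s ≤ L →
      ‖vj R (X i) (a i) (J i) s θ k - u (xr R (X i) s, θ) k‖ ≤ t)
    (hok : ∀ q : ℝ × ℝ, R < q.1 → Act.Ok (u q 0) (u q 1) (u q 3)) :
    Tendsto (fun i => Act.actC (χ i) R (X i) (a i) (J i)) l (𝓝 (actI R φ u)) := by
  set G : ι → ℝ → ℂ := fun i x => ∫ θ in (0 : ℝ)..(2 * Real.pi), den φ R (X i) (a i) (J i) (x, θ)
    with hG
  have e : ∀ᶠ i in l, ∫ x in Ioi R, (Iic (X i)).indicator (G i) x =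
      Act.actC (χ i) R (X i) (a i) (J i) := by
    filter_upwards [hm, hχ] with i h hc
    rw [h.actC_eq hφ hc, intervalIntegral.integral_of_le (by linarith [h.RX']),
      setIntegral_indicator measurableSet_Iic, Ioi_inter_Iic]
  refine Tendsto.congr' e (tendsto_integral_filter_of_dominated_convergence _ ?_ ?_
    (intg_gauss R) ?_)
  · filter_upwards [hm] with i h
    rw [aestronglyMeasurable_indicator_iff measurableSet_Iic, Measure.restrict_restrict
      measurableSet_Iic, inter_comm, Ioi_inter_Iic]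
    exact ((h.oi_cont hφ).mono Ioc_subset_Icc_self).aestronglyMeasurable measurableSet_Ioc
  · filter_upwards [hm] with i h
    refine (ae_restrict_iff' measurableSet_Ioi).2 (.of_forall fun x hx => ?_)
    by_cases hx' : x ∈ Iic (X i)
    · rw [indicator_of_mem hx']
      exact intervalIntegral.norm_integral_le_of_norm_le_const fun θ _ =>
        h.den_le hφ1 (q := (x, θ)) ⟨le_of_lt hx, hx'⟩
    · rw [indicator_of_notMem hx', norm_zero]; positivity
  · refine (ae_restrict_iff' measurableSet_Ioi).2 (.of_forall fun x hx => ?_)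
    have hx1 : ∀ᶠ i in l, x ∈ Icc R (X i) :=
      (hX.eventually_ge_atTop x).mono fun i hi => ⟨le_of_lt hx, hi⟩
    refine Tendsto.congr' (hx1.mono fun i hi => (indicator_of_mem (show x ∈ Iic (X i) from hi.2) _).symm)
      (intervalIntegral.tendsto_integral_filter_of_dominated_convergence
        (fun _ => 9 * Real.exp (-x ^ 2 / 4)) ?_ ?_ (by simp) (.of_forall fun θ _ => ?_))
    · filter_upwards [hm, hx1] with i h hi
      exact ((h.den_cont hφ).comp_continuous (f := fun θ : ℝ => (x, θ)) (by fun_prop)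
        fun θ => ⟨hi, trivial⟩).aestronglyMeasurable
    · filter_upwards [hm, hx1] with i h hi
      exact .of_forall fun θ _ => h.den_le hφ1 (q := (x, θ)) hi
    · have c : ∀ k, Tendsto (fun i => vk R (X i) (a i) (J i) (tX R (X i)) k (x, θ)) l
          (𝓝 (u (x, θ) k)) := fun k => by
        refine Metric.tendsto_nhds.2 fun t ht => ?_
        filter_upwards [hm, hx1, hu x (t / 2) (half_pos ht)] with i h hi h1
        obtain ⟨s, hs⟩ := exists_xr h.RX' hi
        have h2 := h1 s θ k hs.le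
        have e : tX R (X i) x = s := by rw [← hs, tX_xr h.RX']
        rw [hs] at h2
        rw [dist_eq_norm, vk, e]
        exact h2.trans_lt (half_lt_self ht)
      exact ((cont_lag (hok (x, θ) hx)).tendsto.comp
        (tendsto_const_nhds.prodMk_nhds ((c 0).prodMk_nhds ((c 1).prodMk_nhds (c 3))))).const_mul _

end Crest.Agent.N250.Av

end
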