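import Crest.Agent.N250.Av.CoreR
import Crest.Agent.N250.Av.Lim
import Crest.Agent.N250.Fm.Act
import Crest.Agent.N250.Ec.Tube
import Crest.Agent.N250.Wr.Cut
import Crest.Agent.N250.Sw.Pg
import Crest.Agent.N250.S9.Id

/-!
# Row 250 (helper33): the Gaussian area of the shrinker is the sum of the core and the end actions
-/

set_option autoImplicit false
open MeasureTheory Set Filter Topology
open scoped ContDiff
open Crest.GeometryTopology.MCF

noncomputable section

namespace Crest.Agent.N250.Av2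

open Wr Po R0

variable {S : Mv}

/-- the weight -/
def gw (x : E) : ℝ := Real.exp (-‖x‖ ^ 2 / 4)

theorem intg_gw (P : Prm S) : Integrable gw (S.mu 0) := by
  rw [← P.shr.reg.imm_integrable 0]
  refine (P.geo.intg_exp (δ := 1 / 4) (by norm_num)).congr (.of_forall fun p => ?_)
  have e : P.geo.S.x2.1 p = ‖(p : E)‖ ^ 2 := mv_x2 P.shr.reg p
  simp only [gw, e]
  congr 1; ring

theorem intg_cut (P : Prm S) {c : E → ℝ} (hc : Continuous c) (h0 : ∀ x, 0 ≤ c x) (h1 : ∀ x, c x ≤ 1) :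
    Integrable (fun x => c x * gw x) (S.mu 0) :=
  (intg_gw P).bdd_mul hc.aestronglyMeasurable
    (.of_forall fun x => by rw [Real.norm_of_nonneg (h0 x)]; exact h1 x)

theorem pol (hS : S.Reg) (e : Ends S) (j : Fin e.p) {q : ℝ × ℝ} (hq : e.R < q.1) :
    Pol S 0 (e.Q j) (e.r j) (S9.vS e j) q := by
  have o : {q : ℝ × ℝ | e.R < q.1} ∈ 𝓝 q := (isOpen_lt continuous_const continuous_fst).mem_nhds hq
  exact ⟨hS, ((e.sm j).contDiffAt o).of_le (WithTop.coe_le_coe.2 (le_top (a := (2 : ℕ∞)))),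
    Ec.r_pos e j hq, .of_forall fun _ => rfl, mem_of_superset o fun y hy => Ec.pX_mem e j hy⟩

/-- the part of the Gaussian area on the end `j` -/
theorem int_end (P : Prm S) (j : Fin P.e.p) {R a b : ℝ} (hR : P.e.R < R) (ha : R ≤ a) (hab : a < b) :
    ((∫ x, chi P.e j a b x * gw x ∂S.mu 0 : ℝ) : ℂ) =
      Av.actI R (fun x => ((st a b x : ℝ) : ℂ)) (S9.jS P.e j) := by
  have hp : ∀ q ∈ strip (Ioi R), Pol S 0 (P.e.Q j) (P.e.r j) (S9.vS P.e j) q :=
    fun q hq => pol P.shr.reg P.e j (hR.trans hq.1)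
  have hm := meas_pol measurableSet_Ioi hp
  have hi := intg_cut P (contDiff_chi (e := P.e) j a b).continuous (chi_nonneg j a b) (chi_le_one j a b)
  set F : ℝ × ℝ → ℝ := fun q => st a b q.1 *
    Fm.Ac.lagR q.1 (S9.vS P.e j q) (d1 (S9.vS P.e j) q) (d2 (S9.vS P.e j) q) with hF
  have e1 : ∀ q ∈ strip (Ioi R), √(Qv (S9.vS P.e j) q) • (chi P.e j a b (pX (P.e.Q j) (P.e.r j) q) *
      gw (pX (P.e.Q j) (P.e.r j) q)) = F q := fun q hq => by
    have h1 : P.e.R < q.1 := hR.trans hq.1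
    rw [← Ec.psi_val h1, Ec.chi_psi h1, Ec.psi_val h1, gw, norm_pX_sq, smul_eq_mul, hF]
    simp only [Fm.Ac.lagR, Qv]
    rw [show -(q.1 ^ 2 + P.e.r j q ^ 2) / 4 = -q.1 ^ 2 / 4 - S9.vS P.e j q / 2 by
      rw [S9.vS]; ring]
    ring
  have hs : MeasurableSet (strip (Ioi R)) := measurableSet_Ioi.prod measurableSet_Ioc
  have e2 : ∫ x, chi P.e j a b x * gw x ∂S.mu 0 = ∫ q in strip (Ioi R), F q := by
    rw [← setIntegral_congr_fun hs e1,
      ← int_pol measurableSet_Ioi hp (fun x => chi P.e j a b x * gw x), ← integral_indicator hm,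
      ← P.shr.reg.imm_integral 0, ← P.shr.reg.imm_integral 0]
    refine integral_congr_ae (.of_forall fun p => ?_)
    by_cases h : chi P.e j a b p = 0
    · simp only [indicator, h, zero_mul, ite_self]
    · obtain ⟨q, h1, h2, h3⟩ := Ec.exists_psi P.shr.st (hR.le.trans ha) p
        (tube_of_chi P.shr.st (hR.trans_le ha) hab (p := (p, 0)) p.2 h)
      have h4 : (p : E) ∈ pX (P.e.Q j) (P.e.r j) '' strip (Ioi R) := by
        refine ⟨q, ⟨ha.trans_lt h1, h2⟩, ?_⟩
        rw [← Ec.psi_val ((hR.trans_le ha).trans h1), h3]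
      exact (indicator_of_mem h4 fun x => chi P.e j a b x * gw x).symm
  have i2 : IntegrableOn F (strip (Ioi R)) :=
    ((intg_pol measurableSet_Ioi hp _).1 hi.integrableOn).congr_fun e1 hs
  have hv : Ra.Per (S9.vS P.e j) := fun s θ => by simp only [S9.vS, P.e.per j s θ]
  rw [e2, strip, Measure.volume_eq_prod, setIntegral_prod _ i2, Av.actI, ← integral_complex_ofReal]
  refine setIntegral_congr_fun measurableSet_Ioi fun x hx => ?_
  have hP : Function.Periodic (fun θ => F (x, θ)) (2 * Real.pi) := fun θ => by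
    simp only [hF, hv x θ, show d1 (S9.vS P.e j) (x, θ + 2 * Real.pi) = _ from hv.dd (1, 0) x θ,
      show d2 (S9.vS P.e j) (x, θ + 2 * Real.pi) = _ from hv.dd (0, 1) x θ]
    rfl
  have e3 := hP.intervalIntegral_add_eq (-Real.pi) 0
  rw [zero_add, show -Real.pi + 2 * Real.pi = Real.pi by ring,
    intervalIntegral.integral_of_le (by linarith [Real.pi_pos])] at e3
  rw [e3, ← intervalIntegral.integral_ofReal]
  refine intervalIntegral.integral_congr fun θ _ => ?_
  have h0 : 0 < S9.vS P.e j (x, θ) := by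
    have := Ec.r_pos P.e j (q := (x, θ)) (hR.trans hx)
    rw [S9.vS]; positivity
  simp only [hF]
  rw [Complex.ofReal_mul, ← Fm.Ac.Lag_real _ _ _ h0]
  rfl

/-- **splitting of the Gaussian area** -/
theorem spl (T : St S) : ((4 * Real.pi * S.Fs 0 0 1 : ℝ) : ℂ) = T.AC T.G.SC.x +
    ∑ j, Av.actI T.R (fun x => ((st (T.R + 1 / 10) (T.R + 1 / 3) x : ℝ) : ℂ)) (S9.jS T.e j) := by
  have hR : T.e.R < T.R := by linarith [T.hR]
  have hab : T.R + 1 / 10 < T.R + 1 / 3 := by linarith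
  have i1 := intg_cut T.P (contDiff_zeta (e := T.e) (T.R + 1 / 10) (T.R + 1 / 3)).continuous
    (zeta_nonneg _ _) (zeta_le_one _ _)
  have i2 := fun j => intg_cut T.P (contDiff_chi (e := T.e) j (T.R + 1 / 10) (T.R + 1 / 3)).continuous
    (chi_nonneg j _ _) (chi_le_one j _ _)
  have e1 : T.AC T.G.SC.x =
      (∫ x, zeta T.e (T.R + 1 / 10) (T.R + 1 / 3) x * gw x ∂S.mu 0 : ℝ) := by
    rw [Av.AC_x, ← T.P.shr.reg.imm_integral 0]; rfl
  rw [e1, ← Finset.sum_congr rfl fun j _ => int_end T.P j hR (by linarith) hab, ← Complex.ofReal_sum,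
    ← Complex.ofReal_add, ← integral_finsetSum _ fun j _ => i2 j,
    ← integral_add i1 (integrable_finsetSum _ fun j _ => i2 j), Mv.Fs, ← integral_const_mul,
    ← T.P.shr.reg.imm_integral 0, ← T.P.shr.reg.imm_integral 0]
  refine congrArg _ (integral_congr_ae (.of_forall fun p => ?_))
  have h := zeta_add_sum T.P.shr.st (by linarith : T.e.R < T.R + 1 / 10) hab (p := ((p : E), 0)) p.2
  have := Real.pi_pos
  simp only [← Finset.sum_mul, ← add_mul]
  rw [show zeta T.e (T.R + 1 / 10) (T.R + 1 / 3) p + ∑ j, chi T.e j (T.R + 1 / 10) (T.R + 1 / 3) p = 1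
    from h, one_mul, gau, gw, sub_zero, mul_one, mul_one]
  field_simp

end Crest.Agent.N250.Av2

end
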